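import Vale.Agent.P223I.Fin

namespace Vale.Agent.Results.P223.AAAFull

open MeasureTheory Vale.Agent.P223.J

/-- Gromov's inequality: for every `n ≥ 3` there is `a > 0` such that all closed connected oriented
smooth `n`-manifolds `M` (`c` is an oriented smooth atlas) and all smooth Riemannian metrics `g` on
`M`, with the volume measure `μ`, satisfy `a ‖M‖ ≤ ∫ (Scal⁻)^(n/2) dμ`. -/
theorem result (n : ℕ) (hn : 3 ≤ n) : ∃ a > (0 : ℝ), ∀ (M : Type) [TopologicalSpace M]
    [CompactSpace M] [T2Space M] [ConnectedSpace M] [MeasurableSpace M] [BorelSpace M]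
    (c : M → Ch n M), Atl c → ∀ (g : M → Mtx n) (μ : Measure M), Met c g → Vol c g μ →
      ENNReal.ofReal a * sv c ≤ L n μ (sn c g) := by
  obtain ⟨A, A0, H⟩ := Vale.Agent.P223I.q1 hn
  refine ⟨A⁻¹, inv_pos.2 A0, fun M _ _ _ _ _ _ c hc g μ hg hμ => ?_⟩
  refine (mul_le_mul_right (H M c hc g μ hg hμ) _).trans (le_of_eq ?_)
  rw [← mul_assoc, ← ENNReal.ofReal_mul (inv_pos.2 A0).le, inv_mul_cancel₀ A0.ne',
    ENNReal.ofReal_one, one_mul]

end Vale.Agent.Results.P223.AAAFull
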